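import Mathlib

namespace Vale.Agent.P324

/-- `τ` is a schedule of length `T` on `m` machines for the unit jobs `Fin n` with precedence
arcs `E`: slots are `1, ..., T`, each slot is used at most `m` times, arcs go forward in time. -/
def IsSchedule {n : ℕ} (m : ℕ) (E : Fin n → Fin n → Prop) (T : ℕ) (τ : Fin n → ℕ) : Prop :=
  (∀ v, 1 ≤ τ v ∧ τ v ≤ T) ∧
  (∀ t, (Finset.univ.filter (fun v => τ v = t)).card ≤ m) ∧
  ∀ u v, E u v → τ u < τ v

/-- The precedence graph has height at most one (measured in arcs): no two consecutive arcs. -/
def HeightOne {n : ℕ} (E : Fin n → Fin n → Prop) : Prop :=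
  ∀ u v w, E u v → ¬ E v w

open Classical in
/-- The jobs that have at least one successor. -/
noncomputable def heads {n : ℕ} (E : Fin n → Fin n → Prop) : Finset (Fin n) :=
  Finset.univ.filter (fun u => ∃ v, E u v)

open Classical in
/-- The jobs without successors none of whose predecessors lies in `R`. -/
noncomputable def freeOf {n : ℕ} (E : Fin n → Fin n → Prop) (R : Finset (Fin n)) :
    Finset (Fin n) :=
  Finset.univ.filter (fun v => v ∉ heads E ∧ ∀ u ∈ R, ¬ E u v)

/-- Largest number of jobs that can share a slot with the last `a mod m` jobs of `heads E`: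
the maximum over `R ⊆ heads E` with `|R| = a mod m` of `min (m - a mod m) |freeOf E R|`. -/
noncomputable def fill {n : ℕ} (m : ℕ) (E : Fin n → Fin n → Prop) : ℕ :=
  ((heads E).powersetCard ((heads E).card % m)).sup
    (fun R => min (m - (heads E).card % m) (freeOf E R).card)

/-- The closed formula for the optimal makespan of a height-one instance. -/
noncomputable def formula {n : ℕ} (m : ℕ) (E : Fin n → Fin n → Prop) : ℕ :=
  (heads E).card / m + 1 + (n - (heads E).card - fill m E + m - 1) / m

end Vale.Agent.P324
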