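import Vale.Agent.P324.Defs

namespace Vale.Agent.P324

variable {n : ℕ}

theorem card_times_le {m T : ℕ} {E : Fin n → Fin n → Prop} {τ : Fin n → ℕ}
    (h : IsSchedule m E T τ) (S : Finset (Fin n)) (I : Finset ℕ) (hS : ∀ v ∈ S, τ v ∈ I) :
    S.card ≤ m * I.card := by
  classical
  have h1 : S.card ≤ m * (S.image τ).card := by
    refine Finset.card_le_mul_card_image S m ?_
    intro t _
    refine le_trans (Finset.card_le_card ?_) (h.2.1 t)
    intro v hv
    simp only [Finset.mem_filter, Finset.mem_univ, true_and] at hv ⊢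
    exact hv.2
  refine le_trans h1 (Nat.mul_le_mul_left m (Finset.card_le_card ?_))
  intro t ht
  obtain ⟨v, hv, rfl⟩ := Finset.mem_image.1 ht
  exact hS v hv

theorem heads_card_lt (hn : 1 ≤ n) {E : Fin n → Fin n → Prop} (hE : HeightOne E) :
    (heads E).card < n := by
  classical
  have : heads E ≠ Finset.univ := by
    intro hcon
    have h0 : (⟨0, hn⟩ : Fin n) ∈ heads E := by rw [hcon]; exact Finset.mem_univ _
    obtain ⟨v, hv⟩ := (Finset.mem_filter.1 h0).2
    have h1 : v ∈ heads E := by rw [hcon]; exact Finset.mem_univ _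
    obtain ⟨w, hw⟩ := (Finset.mem_filter.1 h1).2
    exact hE _ _ _ hv hw
  have h2 := Finset.card_lt_card (Finset.ssubset_univ_iff.2 this)
  simpa using h2

theorem fill_le (m : ℕ) (E : Fin n → Fin n → Prop) : fill m E ≤ m - (heads E).card % m := by
  unfold fill
  exact Finset.sup_le fun R _ => min_le_left _ _

theorem compl_heads_card (E : Fin n → Fin n → Prop) :
    (Finset.univ \ heads E).card = n - (heads E).card := by
  rw [Finset.card_sdiff_of_subset (Finset.subset_univ _)]
  simp

theorem main_ineq (hn : 1 ≤ n) {m T : ℕ} (hm : 1 ≤ m) {E : Fin n → Fin n → Prop}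
    (hE : HeightOne E) {τ : Fin n → ℕ} (h : IsSchedule m E T τ) :
    (heads E).card / m + 1 ≤ T ∧
      n - (heads E).card ≤ fill m E + m * (T - (heads E).card / m - 1) := by
  classical
  set A := heads E with hA
  set a := A.card with ha
  set s := a / m with hs
  set r := a % m with hr
  have hdm : m * s + r = a := Nat.div_add_mod a m
  have haa : (heads E).card = a := rfl
  have hrm : r < m := Nat.mod_lt _ hm
  have hφ := fill_le m E
  rw [← hA, ← ha, ← hr] at hφ
  have hsup : ∀ R ⊆ A, R.card = r → min (m - r) (freeOf E R).card ≤ fill m E := by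
    intro R hR hRc
    exact Finset.le_sup (f := fun R => min (m - (heads E).card % m) (freeOf E R).card)
      (Finset.mem_powersetCard.2 ⟨hR, hRc⟩)
  clear_value s r a
  have han : a < n := haa ▸ heads_card_lt hn hE
  have hcapT : n ≤ m * T := by
    have := card_times_le h Finset.univ (Finset.Icc 1 T)
      (fun v _ => Finset.mem_Icc.2 (h.1 v))
    simpa using this
  have hsT : s + 1 ≤ T := by
    by_contra hcon
    have h1 : T ≤ s := by omega
    have h2 : m * T ≤ m * s := Nat.mul_le_mul_left m h1
    omega
  refine ⟨hsT, ?_⟩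
  obtain ⟨k, hk⟩ : ∃ k, T = s + 1 + k := ⟨T - (s + 1), by omega⟩
  have hTk : T - s - 1 = k := by omega
  rw [hTk]
  have hmT : m * T = m * s + m + m * k := by rw [hk]; ring
  by_cases hcase : m - r ≤ fill m E
  · omega
  · have hlt : fill m E < m - r := not_le.1 hcase
    have hfree : ∀ R ⊆ A, R.card = r → (freeOf E R).card ≤ fill m E := by
      intro R hR hRc
      have h1 := hsup R hR hRc
      rcases min_le_iff.1 h1 with h2 | h2
      · omega
      · exact h2
    rcases Nat.eq_zero_or_pos r with hr0 | hr0
    · have h1 := hfree ∅ (Finset.empty_subset _) (by simp [hr0])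
      have h2 : freeOf E ∅ = Finset.univ \ A := by
        ext v
        simp [freeOf, hA]
      rw [h2, compl_heads_card] at h1
      omega
    · have hex : ∃ t, m * s < (A.filter (fun u => τ u ≤ t)).card := by
        refine ⟨T, ?_⟩
        have : A.filter (fun u => τ u ≤ T) = A :=
          Finset.filter_true_of_mem fun u _ => (h.1 u).2
        rw [this]
        omega
      obtain ⟨t0, hP, hmin'⟩ : ∃ t0, m * s < (A.filter (fun u => τ u ≤ t0)).card ∧
          ∀ t < t0, ¬ m * s < (A.filter (fun u => τ u ≤ t)).card :=
        ⟨Nat.find hex, Nat.find_spec hex, fun t ht => Nat.find_min hex ht⟩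
      have hcap0 : (A.filter (fun u => τ u ≤ t0)).card ≤ m * t0 := by
        have := card_times_le h (A.filter (fun u => τ u ≤ t0)) (Finset.Icc 1 t0)
          (fun v hv => Finset.mem_Icc.2 ⟨(h.1 v).1, (Finset.mem_filter.1 hv).2⟩)
        simpa using this
      have hst0 : s + 1 ≤ t0 := by
        by_contra hcon
        have h1 : t0 ≤ s := by omega
        have h2 : m * t0 ≤ m * s := Nat.mul_le_mul_left m h1
        omega
      have hmin : (A.filter (fun u => τ u ≤ t0 - 1)).card ≤ m * s := by
        have := hmin' (t0 - 1) (by omega)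
        omega
      have hsplit : (A.filter (fun u => τ u ≤ t0 - 1)).card + (A.filter (fun u => t0 ≤ τ u)).card
          = a := by
        have := Finset.card_filter_add_card_filter_not (s := A) (fun u => τ u ≤ t0 - 1)
        have h2 : A.filter (fun u => ¬ τ u ≤ t0 - 1) = A.filter (fun u => t0 ≤ τ u) := by
          refine Finset.filter_congr fun u _ => ?_
          omega
        rw [h2] at this
        rw [this]
        exact haa
      obtain ⟨R, hR0, hRc⟩ := Finset.exists_subset_card_eq
        (s := A.filter (fun u => t0 ≤ τ u)) (n := r) (by omega)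
      have hRA : R ⊆ A := hR0.trans (Finset.filter_subset _ _)
      have h1 := hfree R hRA hRc
      have hB1 : ((Finset.univ \ A).filter (fun v => τ v ≤ t0)).card ≤ (freeOf E R).card := by
        refine Finset.card_le_card ?_
        intro v hv
        rw [Finset.mem_filter, Finset.mem_sdiff] at hv
        refine Finset.mem_filter.2 ⟨Finset.mem_univ _, hv.1.2, ?_⟩
        intro u hu hEuv
        have h3 := h.2.2 u v hEuv
        have h4 := (Finset.mem_filter.1 (hR0 hu)).2
        omega
      have hB2 : ((Finset.univ \ A).filter (fun v => ¬ τ v ≤ t0)).card ≤ m * (T - t0) := by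
        have := card_times_le h ((Finset.univ \ A).filter (fun v => ¬ τ v ≤ t0))
          (Finset.Ioc t0 T) (fun v hv => Finset.mem_Ioc.2
            ⟨not_le.1 (Finset.mem_filter.1 hv).2, (h.1 v).2⟩)
        simpa using this
      have hB3 := Finset.card_filter_add_card_filter_not (s := Finset.univ \ A)
        (fun v => τ v ≤ t0)
      rw [compl_heads_card] at hB3
      have hB4 : m * (T - t0) ≤ m * k := Nat.mul_le_mul_left m (by omega)
      omega

theorem formula_le (hn : 1 ≤ n) {m T : ℕ} (hm : 1 ≤ m) {E : Fin n → Fin n → Prop}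
    (hE : HeightOne E) {τ : Fin n → ℕ} (h : IsSchedule m E T τ) : formula m E ≤ T := by
  obtain ⟨h1, h2⟩ := main_ineq hn hm hE h
  unfold formula
  have h3 : (n - (heads E).card - fill m E + m - 1) / m ≤ T - (heads E).card / m - 1 := by
    rw [Nat.div_le_iff_le_mul_add_pred hm]
    omega
  omega

end Vale.Agent.P324
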