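import Vale.Agent.P324.Lower

namespace Vale.Agent.P324

variable {n : ℕ}

/-- rank of `v` inside `S` -/
def idx (S : Finset (Fin n)) (v : Fin n) : ℕ := (S.filter (fun w => w < v)).card

theorem idx_lt_idx {S : Finset (Fin n)} {v w : Fin n} (hv : v ∈ S) (hvw : v < w) :
    idx S v < idx S w := by
  refine Finset.card_lt_card ?_
  refine Finset.ssubset_iff_subset_ne.2 ⟨?_, ?_⟩
  · intro x hx
    rw [Finset.mem_filter] at hx ⊢
    exact ⟨hx.1, hx.2.trans hvw⟩
  · intro hcon
    have : v ∈ S.filter (fun x => x < w) := Finset.mem_filter.2 ⟨hv, hvw⟩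
    rw [← hcon] at this
    exact lt_irrefl _ (Finset.mem_filter.1 this).2

theorem idx_injOn (S : Finset (Fin n)) : Set.InjOn (idx S) S := by
  intro v hv w hw h
  rcases lt_trichotomy v w with h1 | h1 | h1
  · exact absurd h (idx_lt_idx hv h1).ne
  · exact h1
  · exact absurd h (idx_lt_idx hw h1).ne'

theorem idx_lt_card {S : Finset (Fin n)} {v : Fin n} (hv : v ∈ S) : idx S v < S.card := by
  refine Finset.card_lt_card ?_
  refine Finset.ssubset_iff_subset_ne.2 ⟨Finset.filter_subset _ _, ?_⟩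
  intro hcon
  rw [← hcon] at hv
  exact lt_irrefl _ (Finset.mem_filter.1 hv).2

theorem card_block_le (S : Finset (Fin n)) {m : ℕ} (hm : 1 ≤ m) (q : ℕ) :
    (S.filter (fun v => idx S v / m = q)).card ≤ m := by
  have h1 : (S.filter (fun v => idx S v / m = q)).card ≤ (Finset.Ico (q * m) (q * m + m)).card := by
    refine Finset.card_le_card_of_injOn (idx S) ?_ ?_
    · intro v hv
      have hv' := (Finset.mem_filter.1 hv).2
      simp only [Finset.coe_Ico, Set.mem_Ico]
      have h2 := Nat.div_add_mod (idx S v) m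
      have h3 := Nat.mod_lt (idx S v) hm
      rw [hv'] at h2
      rw [mul_comm] at h2
      omega
    · intro v hv w hw h
      exact idx_injOn S (Finset.mem_filter.1 hv).1 (Finset.mem_filter.1 hw).1 h
  simpa using h1

theorem exists_schedule (hn : 1 ≤ n) {m : ℕ} (hm : 1 ≤ m) {E : Fin n → Fin n → Prop}
    (hE : HeightOne E) : ∃ τ, IsSchedule m E (formula m E) τ := by
  classical
  obtain ⟨A, hA⟩ : ∃ A, A = heads E := ⟨_, rfl⟩
  obtain ⟨a, ha⟩ : ∃ a, a = A.card := ⟨_, rfl⟩
  obtain ⟨s, hs⟩ : ∃ s, s = a / m := ⟨_, rfl⟩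
  obtain ⟨r, hr⟩ : ∃ r, r = a % m := ⟨_, rfl⟩
  obtain ⟨φ, hφ⟩ : ∃ φ, φ = fill m E := ⟨_, rfl⟩
  have hdm : m * s + r = a := by rw [hs, hr]; exact Nat.div_add_mod a m
  have hrm : r < m := by rw [hr]; exact Nat.mod_lt _ hm
  have han : a < n := by rw [ha, hA]; exact heads_card_lt hn hE
  obtain ⟨c, hc⟩ : ∃ c, c = (n - a - φ + m - 1) / m := ⟨_, rfl⟩
  have hform : formula m E = s + 1 + c := by
    unfold formula
    rw [← hA, ← ha, ← hs, ← hφ, ← hc]
  have hne : (A.powersetCard r).Nonempty := by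
    refine Finset.powersetCard_nonempty.2 ?_
    omega
  obtain ⟨R, hRmem, hRsup⟩ := Finset.exists_mem_eq_sup (A.powersetCard r) hne
    (fun R => min (m - r) (freeOf E R).card)
  have hφR : φ = min (m - r) (freeOf E R).card := by
    rw [hφ, ← hRsup]
    unfold fill
    rw [← hA, ← ha, ← hr]
  obtain ⟨hRA, hRc⟩ := Finset.mem_powersetCard.1 hRmem
  obtain ⟨F, hF, hFc⟩ := Finset.exists_subset_card_eq (s := freeOf E R) (n := φ)
    (by rw [hφR]; exact min_le_right _ _)
  have hφm : φ ≤ m - r := by rw [hφR]; exact min_le_left _ _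
  obtain ⟨A', hA'⟩ : ∃ A', A' = A \ R := ⟨_, rfl⟩
  obtain ⟨B, hB⟩ : ∃ B, B = (Finset.univ \ A) \ F := ⟨_, rfl⟩
  have hA'c : A'.card = m * s := by
    rw [hA', Finset.card_sdiff_of_subset hRA]
    omega
  have hFA : F ⊆ Finset.univ \ A := by
    intro v hv
    have := (Finset.mem_filter.1 (hF hv)).2.1
    rw [← hA] at this
    exact Finset.mem_sdiff.2 ⟨Finset.mem_univ _, this⟩
  have hBc : B.card = n - a - φ := by
    rw [hB, Finset.card_sdiff_of_subset hFA, hA, compl_heads_card, ← hA, ← ha, hFc]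
  obtain ⟨q1, hq1⟩ : ∃ q1 : Fin n → ℕ, ∀ v, q1 v = idx A' v / m := ⟨_, fun _ => rfl⟩
  obtain ⟨q2, hq2⟩ : ∃ q2 : Fin n → ℕ, ∀ v, q2 v = idx B v / m := ⟨_, fun _ => rfl⟩
  let τ : Fin n → ℕ := fun v =>
    if v ∈ A' then q1 v + 1 else if v ∈ R ∪ F then s + 1 else s + 2 + q2 v
  have hτ1 : ∀ v, v ∈ A' → τ v = q1 v + 1 := fun v hv => by simp [τ, hv]
  have hτ2 : ∀ v, v ∉ A' → v ∈ R ∪ F → τ v = s + 1 := fun v hv hv2 => by simp only [τ, hv, hv2, if_true, if_false]
  have hτ3 : ∀ v, v ∉ A' → v ∉ R ∪ F → τ v = s + 2 + q2 v := fun v hv hv2 => by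
    simp only [τ, hv, hv2, if_false]
  have hmemB : ∀ v, v ∉ A' → v ∉ R ∪ F → v ∈ B := by
    intro v hv hv2
    rw [hB]
    rw [Finset.mem_union, not_or] at hv2
    refine Finset.mem_sdiff.2 ⟨Finset.mem_sdiff.2 ⟨Finset.mem_univ _, ?_⟩, hv2.2⟩
    intro hvA
    exact hv (by rw [hA']; exact Finset.mem_sdiff.2 ⟨hvA, hv2.1⟩)
  have hle1 : ∀ v, v ∈ A' → τ v ≤ s := by
    intro v hv
    rw [hτ1 v hv]
    have h1 := idx_lt_card hv
    rw [hA'c] at h1
    have : q1 v < s := by
      rw [hq1]
      exact (Nat.div_lt_iff_lt_mul hm).2 (by rw [mul_comm] at h1; exact h1)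
    omega
  refine ⟨τ, ?_, ?_, ?_⟩
  · intro v
    rw [hform]
    by_cases h1 : v ∈ A'
    · have := hle1 v h1
      rw [hτ1 v h1] at this ⊢
      omega
    · by_cases h2 : v ∈ R ∪ F
      · rw [hτ2 v h1 h2]
        omega
      · rw [hτ3 v h1 h2]
        have h3 := idx_lt_card (hmemB v h1 h2)
        rw [hBc] at h3
        have h4 : q2 v + 1 ≤ c := by
          rw [hc, Nat.le_div_iff_mul_le hm]
          have := Nat.div_mul_le_self (idx B v) m
          rw [← hq2] at this
          have h5 : (q2 v + 1) * m = q2 v * m + m := by ring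
          omega
        omega
  · intro t
    rcases Nat.lt_trichotomy t (s + 1) with ht | ht | ht
    · refine le_trans (Finset.card_le_card ?_) (card_block_le A' hm (t - 1))
      intro v hv
      have hv' := (Finset.mem_filter.1 hv).2
      by_cases h1 : v ∈ A'
      · rw [hτ1 v h1] at hv'
        exact Finset.mem_filter.2 ⟨h1, by rw [← hq1]; omega⟩
      · by_cases h2 : v ∈ R ∪ F
        · rw [hτ2 v h1 h2] at hv'
          omega
        · rw [hτ3 v h1 h2] at hv'
          omega
    · have hcard : (R ∪ F).card ≤ m := by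
        refine le_trans (Finset.card_union_le _ _) ?_
        omega
      refine le_trans (Finset.card_le_card ?_) hcard
      intro v hv
      have hv' := (Finset.mem_filter.1 hv).2
      by_cases h1 : v ∈ A'
      · have := hle1 v h1
        omega
      · by_cases h2 : v ∈ R ∪ F
        · exact h2
        · rw [hτ3 v h1 h2] at hv'
          omega
    · refine le_trans (Finset.card_le_card ?_) (card_block_le B hm (t - s - 2))
      intro v hv
      have hv' := (Finset.mem_filter.1 hv).2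
      by_cases h1 : v ∈ A'
      · have := hle1 v h1
        omega
      · by_cases h2 : v ∈ R ∪ F
        · rw [hτ2 v h1 h2] at hv'
          omega
        · rw [hτ3 v h1 h2] at hv'
          exact Finset.mem_filter.2 ⟨hmemB v h1 h2, by rw [← hq2]; omega⟩
  · intro u v huv
    have huA : u ∈ A := by rw [hA]; exact Finset.mem_filter.2 ⟨Finset.mem_univ _, v, huv⟩
    have hvA : v ∉ A := by
      rw [hA]
      intro hcon
      obtain ⟨w, hw⟩ := (Finset.mem_filter.1 hcon).2
      exact hE _ _ _ huv hw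
    have hvA' : v ∉ A' := by
      rw [hA']
      intro hcon
      exact hvA (Finset.mem_sdiff.1 hcon).1
    have hvge : s + 1 ≤ τ v := by
      by_cases h2 : v ∈ R ∪ F
      · rw [hτ2 v hvA' h2]
      · rw [hτ3 v hvA' h2]
        omega
    by_cases h1 : u ∈ A'
    · have := hle1 u h1
      omega
    · have huR : u ∈ R := by
        by_contra hcon
        exact h1 (by rw [hA']; exact Finset.mem_sdiff.2 ⟨huA, hcon⟩)
      rw [hτ2 u h1 (Finset.mem_union_left _ huR)]
      have hvRF : v ∉ R ∪ F := by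
        rw [Finset.mem_union, not_or]
        refine ⟨fun hcon => hvA (hRA hcon), fun hcon => ?_⟩
        exact (Finset.mem_filter.1 (hF hcon)).2.2 u huR huv
      rw [hτ3 v hvA' hvRF]
      omega

end Vale.Agent.P324
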